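import Crest.Agent.R273.D13_505
import Crest.Agent.R273.SerE_945
import Crest.Agent.R275.SerQ_398
import Crest.Agent.R275.ChiM_825
import Crest.Agent.X262.Lat.NDefs
import Crest.Agent.R275.NoeFin_890
import Crest.Agent.R275.NA4m_783
import Crest.Agent.R275.NA4sw_686
import Crest.Agent.R275.EulC_130
import Crest.Agent.X277.AN.G1Gaga
import Crest.Agent.X277.AN.G1KO

-- ▼ part X262/Noe83/Van
section

/-!
# Row 262, NOE (helper83), part 1: the groups `hq` of a compact Kaehler surface

* `hq0_eq`   : `hq 0 L` is the dimension of the space of holomorphic sections;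
* `serre_LB` : Serre duality for `hq` (as in `R275/CMInst_615`);
* `hq1_zero`, `hq2_zero` : vanishing from the vanishing for the bundle `BN N` of R273;
* `chi_large` : `χ(L ⊗ O ^ m) = h⁰(L ⊗ O ^ m)` for a positive `O` and large `m`.
-/

set_option autoImplicit false
set_option linter.unusedSectionVars false

open Set Filter Topology Complex
open scoped ContDiff Matrix ComplexConjugate

namespace Crest.Agent.X262.Noe83

open Crest.Agent.R275 Crest.Agent.R275.Geo Crest.Agent.R275.Core144 Crest.Agent.R275.ChiM825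
open Crest.Agent.R275.Q74 Crest.Agent.R275.Fm96 Crest.Agent.R275.Kos798
open Crest.Agent.R275.SerG398 (hB Zd Bd mem_Zd mem_Bd detJ)
open Crest.Agent.R273.Defs_333 Crest.Agent.R273.Kah_333 Crest.Agent.R273.HM_333
open Crest.Agent.R273.Fock_243 Crest.Agent.R273.LamN127 Crest.Agent.R273.DMet_733
open Crest.Agent.R273.SerA_945 Crest.Agent.R273.SerB_945 Crest.Agent.R273.SerE_945

noncomputable section

section comp

variable {n : ℕ} {M : Type} [TopologicalSpace M] {A : Atl n M}

/-- the components of `∂̄ u` -/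
theorem Db_apply {N : LB A} {u : Raw A} (hu : u ∈ Sec (BN N)) {i : A.ι} {x : M}
    (hx : x ∈ (A.e i).source) (T : Finset (Fin n)) :
    Db u i x (T, ()) = ∑ j ∈ T, sgn ℂ j T * A.db i j (fun y => u i y (T.erase j, ())) x := by
  have h1 := congrFun (R273.DMetB_733.oB_nab (N := N) hu.1 hx) T
  refine h1.trans ?_
  rw [Finset.sum_apply, ← Finset.sum_subset (Finset.subset_univ T)]
  · refine Finset.sum_congr rfl fun k hk => ?_
    unfold eW
    rw [K_mulVec, op, Finset.sum_eq_single k]
    · rw [cf, if_pos hk, tog, if_pos hk]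
      simp only [ep, Pi.single_eq_same, mul_one]
      rfl
    · intro j _ hj
      rw [cf]
      split_ifs <;> simp [ep, hj]
    · intro h
      exact absurd (Finset.mem_univ _) h
  · intro k _ hk
    unfold eW
    rw [K_mulVec, op]
    refine Finset.sum_eq_zero fun j _ => ?_
    rw [cf]
    split_ifs with hj
    · have : j ≠ k := fun h => hk (h ▸ hj)
      simp [ep, this]
    · simp

theorem Gam_one_one (m : Matrix (Fin n) (Fin n) ℂ) (a b : Fin n) : Gam m {a} {b} = m a b := by
  rw [Gam_eq m (k := 1) (Finset.card_singleton a) (Finset.card_singleton b)]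
  rw [Matrix.det_fin_one, Matrix.submatrix_apply]
  simp [Finset.orderEmbOfFin_singleton]

/-- a `(0,1)`-form from its coefficients -/
def raw1 (γ : A.ι → M → Fin n → ℂ) : Raw A := fun i x k =>
  ∑ a, if k.1 = {a} then γ i x a else 0

theorem raw1_single (γ : A.ι → M → Fin n → ℂ) (i : A.ι) (x : M) (a : Fin n) :
    raw1 γ i x ({a}, ()) = γ i x a := by
  unfold raw1
  rw [Finset.sum_eq_single a, if_pos rfl]
  · intro b _ hb
    exact if_neg fun h => hb (Finset.singleton_injective h).symm
  · intro h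
    exact absurd (Finset.mem_univ a) h

theorem raw1_deg (γ : A.ι → M → Fin n → ℂ) (i : A.ι) (x : M) {k : Finset (Fin n) × Unit}
    (hk : k.1.card ≠ 1) : raw1 γ i x k = 0 :=
  Finset.sum_eq_zero fun a _ => if_neg fun h => hk (by rw [h, Finset.card_singleton])

end comp

variable {M : Type} [TopologicalSpace M] {A : Atl 2 M}

theorem raw1_mem {N : LB A} {γ : A.ι → M → Fin 2 → ℂ} (h : IsZ1 A N.g univ γ) :
    raw1 γ ∈ FF N 1 := by
  have hsm : ∀ (i : A.ι) (k : Finset (Fin 2) × Unit), A.SmAt i fun x => raw1 γ i x k := by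
    intro i k
    by_cases hk : k.1.card = 1
    · obtain ⟨a, ha⟩ := Finset.card_eq_one.1 hk
      obtain rfl : k = ({a}, ()) := Prod.ext ha rfl
      simp only [raw1_single]
      exact Fm96.smAt_iff.2 fun x hx => h.sm i a x hx trivial
    · simp only [raw1_deg γ i _ hk]
      exact contDiffOn_const
  refine ⟨⟨fun i k => hsm i k, fun i x hx => ?_, fun i j x hx => ?_⟩, fun i x k hk => ?_⟩
  · funext k
    refine Finset.sum_eq_zero fun a _ => ?_
    rw [h.off i x hx]
    exact ite_self _
  · have key : ∀ k : Finset (Fin 2) × Unit, raw1 γ i x k = ∑ l : Finset (Fin 2) × Unit,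
        (Gam (Jb A i j x) k.1 l.1 * N.g i j x) * raw1 γ j x l := by
      intro k
      have h1 : ∑ l : Finset (Fin 2) × Unit, (Gam (Jb A i j x) k.1 l.1 * N.g i j x) *
          raw1 γ j x l = ∑ a, Gam (Jb A i j x) k.1 {a} * N.g i j x * γ j x a := by
        simp only [raw1, Finset.mul_sum, mul_ite, mul_zero]
        rw [Finset.sum_comm]
        refine Finset.sum_congr rfl fun a _ => ?_
        rw [Fintype.sum_prod_type]
        simp
      rw [h1]
      by_cases hk : k.1.card = 1
      · obtain ⟨a, ha⟩ := Finset.card_eq_one.1 hk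
        obtain rfl : k = ({a}, ()) := Prod.ext ha rfl
        rw [raw1_single, h.tr i j x hx trivial, Finset.mul_sum]
        refine Finset.sum_congr rfl fun c _ => ?_
        rw [Gam_one_one, Jb_apply]
        ring
      · rw [raw1_deg γ i x hk]
        refine (Finset.sum_eq_zero fun a _ => ?_).symm
        rw [Gam_of_ne _ (by rwa [Finset.card_singleton]), zero_mul, zero_mul]
    exact funext key
  · by_contra h1
    exact hk (raw1_deg γ i x h1)

theorem Db_raw1 {N : LB A} {γ : A.ι → M → Fin 2 → ℂ} (h : IsZ1 A N.g univ γ) (h0 : d1 A γ = 0) :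
    Db (raw1 γ) = 0 := by
  funext i x k
  obtain ⟨T, ⟨⟩⟩ := k
  by_cases hT : T.card = 2
  · by_cases hx : x ∈ (A.e i).source
    · obtain rfl : T = Finset.univ := Finset.eq_univ_of_card T (by simpa using hT)
      have h1 : d1 A γ i x = 0 := by rw [h0]; rfl
      rw [d1_of_mem hx] at h1
      have e0 : (Finset.univ : Finset (Fin 2)).erase 0 = {1} := by decide
      have e1 : (Finset.univ : Finset (Fin 2)).erase 1 = {0} := by decide
      have s0 : sgn ℂ (0 : Fin 2) Finset.univ = 1 := by
        have : (Finset.univ.filter (· < (0 : Fin 2))).card = 0 := by decide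
        rw [sgn, this, pow_zero]
      have s1 : sgn ℂ (1 : Fin 2) Finset.univ = -1 := by
        have : (Finset.univ.filter (· < (1 : Fin 2))).card = 1 := by decide
        rw [sgn, this, pow_one]
      rw [Db_apply (raw1_mem h).1 hx, Fin.sum_univ_two, e0, e1, s0, s1]
      simp only [raw1_single]
      show _ = (0 : ℂ)
      linear_combination h1
    · rw [FF.off (Db_mem (raw1_mem h)) hx]
      rfl
  · by_contra h1
    exact hT ((Db_mem (raw1_mem h)).2 i x (T, ()) h1)

/-- `H¹ = 0` -/
theorem hq1_zero {N : LB A} (h : Solv N 1) : hq 1 N = 0 := by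
  have hs : Subsingleton (H1 (D0 (isLC N)) (D1 (isLC N)) ⊥ ⊥) := by
    refine Submodule.Quotient.subsingleton_iff.2 (eq_top_iff.2 ?_)
    rintro ⟨γ, hγ⟩ -
    have h0 : d1 A γ.1 = 0 := congrArg Subtype.val (show D1 (isLC N) γ = 0 from hγ)
    obtain ⟨w, hw, hd⟩ := h _ (raw1_mem γ.2) (Db_raw1 γ.2 h0)
    have hw' : w ∈ FF N 0 := hw
    have hz : IsZ0 A N.g univ fun i x => w i x (∅, ()) := by
      refine ⟨fun i x hx _ => Fm96.smAt_iff.1 (hw'.1.1 i ((∅ : Finset (Fin 2)), ())) x hx,
        fun i x hx => ?_, fun i j x hx _ => ?_⟩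
      · rw [FF.off hw' hx]
        rfl
      · have h2 : w i x (∅, ()) = ∑ l : Finset (Fin 2) × Unit,
            (Gam (Jb A i j x) ∅ l.1 * N.g i j x) * w j x l :=
          congrFun (hw'.1.2.2 i j x hx) (∅, ())
        rw [h2, Fintype.sum_prod_type, Finset.sum_eq_single (∅ : Finset (Fin 2))]
        · simp only [Finset.univ_unique, Finset.sum_singleton]
          rw [Gam_vac, if_pos rfl, one_mul]
        · intro T _ hT
          refine Finset.sum_eq_zero fun l _ => ?_
          rw [Gam_of_ne _ fun h => hT (Finset.card_eq_zero.1 h.symm), zero_mul, zero_mul]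
        · intro h
          exact absurd (Finset.mem_univ _) h
    refine Submodule.mem_sup_right ⟨⟨_, hz⟩, Subtype.ext ?_⟩
    funext i x a
    show d0 A (fun i x => w i x (∅, ())) i x a = γ.1 i x a
    by_cases hx : x ∈ (A.e i).source
    · have h3 := Db_apply hw'.1 hx {a}
      have s0 : sgn ℂ a {a} = 1 := by
        have : (({a} : Finset (Fin 2)).filter (· < a)).card = 0 := by simp
        rw [sgn, this, pow_zero]
      rw [hd, raw1_single, Finset.sum_singleton, s0, one_mul, Finset.erase_singleton] at h3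
      rw [d0_of_mem hx, h3]
    · rw [d0_of_not_mem hx, γ.2.off i x hx]
  exact Module.finrank_zero_of_subsingleton

/-- `h⁰` is the dimension of the space of holomorphic sections -/
theorem hq0_eq (L : LB A) : hq 0 L = Module.finrank ℂ (HS L univ) := by
  let φ : HS L univ →ₗ[ℂ] (⊥ : Submodule ℂ (ZZ1 A L.g)).comap (D0 (isLC L)) :=
    { toFun := fun s => ⟨⟨s.1, isZ0_of_isHS s.2⟩, Subtype.ext (d0_of_isHS s.2)⟩
      map_add' := fun _ _ => rfl
      map_smul' := fun _ _ => rfl }
  have h1 : Function.Bijective φ :=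
    ⟨fun s t h => Subtype.ext (congrArg (fun z => z.1.1) h), fun z =>
      ⟨⟨z.1.1, isHS_of_d0 z.1.2 (congrArg Subtype.val (show D0 (isLC L) z.1 = 0 from z.2))⟩, rfl⟩⟩
  rw [(LinearEquiv.ofBijective φ h1).finrank_eq]
  refine (Submodule.quotEquivOfEqBot _ ?_).finrank_eq
  exact (Submodule.comap_bot _).trans (Submodule.ker_subtype _)

variable [CompactSpace M] [T2Space M] [Finite A.ι] (P : Part A)

include P

/-- **Serre duality** -/
theorem serre_LB (L : LB A) : hq 0 L = hq 2 (KB A * L⁻¹) ∧ hq 1 L = hq 1 (KB A * L⁻¹) ∧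
    hq 2 L = hq 0 (KB A * L⁻¹) := by
  refine SerG398.serre_raw P (isLC L) (isLC (KB A * L⁻¹)) (fun i j x hx => ?_) (SerG398.rz P _)
    (SerG398.rz P _)
  have h1 : (KB A).g i j x = detJ A i j x := by
    unfold KB detJ
    exact if_pos hx
  rw [LB.mul_g, LB.inv_g, h1]
  have := L.ne_zero i j x
  field_simp

/-- `H² = 0` -/
theorem hq2_zero {N : LB A} (h : hB (BN N) 2 = 0) : hq 2 N = 0 := by
  rw [(serre_LB P N).2.2]
  refine hq0_eq_zero fun s hs => ?_
  rw [BN_serre P N le_rfl] at h
  have hm := embN_mem (IsHS.smS hs) hs.off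
  have h1 : (⟨embN s, hm.1⟩ : Sec (BN (KB A * N⁻¹))) ∈ Zd _ 0 := by
    rw [mem_Zd]
    exact ⟨Subtype.ext (Db_embN_hol hs), Subtype.ext (pq_of_isDeg hm.2)⟩
  obtain ⟨⟨w, hw⟩, -⟩ := mem_Bd.1 (le_of_fr (BN_finite P _ 0) h h1)
  have h3 : nab (BN (KB A * N⁻¹)) w.1 = embN s := congrArg Subtype.val hw
  funext i x
  have h4 : nab (BN (KB A * N⁻¹)) w.1 i x ((∅ : Finset (Fin 2)), ()) = 0 := nab_deg_zero i x _ rfl
  rw [h3] at h4
  have h5 : embN s i x (∅, ()) = s i x := if_pos rfl
  exact h5.symm.trans h4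

/-- **Serre vanishing** -/
theorem chi_large (K : Kah A) {O : LB A} {hO : HM O} (hp : hO.Pos) (L : LB A) :
    ∀ᶠ m : ℕ in atTop, chiE (isLC (L * O ^ m)) = Module.finrank ℂ (HS (L * O ^ m) univ) := by
  obtain ⟨h0⟩ := exists_hm P ((KB A)⁻¹ * L)
  obtain ⟨m0, hm0⟩ := R273.SerD_945.exists_pos_pow h0 hO hp
  filter_upwards [eventually_ge_atTop m0] with m hm
  have e : (KB A)⁻¹ * L * O ^ m = (KB A)⁻¹ * (L * O ^ m) := mul_assoc _ _ _
  have h1 : ∀ q, 1 ≤ q → hB (BN (L * O ^ m)) q = 0 := fun q hq =>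
    hB_pos (R273.D13_505.d2 P K) (R273.NV_578.castH_pos e (hm0 m hm)) hq
  rw [chiE_eq, hq1_zero (solv_of_hB P le_rfl (h1 1 le_rfl)), hq2_zero P (h1 2 one_le_two), hq0_eq]
  simp

end

end Crest.Agent.X262.Noe83
end

-- ▼ part X262/Noe83/Main

/-!
# Row 262, NOE (helper83), part 2: Noether's formula

* `noe_an`  : Noether's formula of R275 for a compact surface with a finite good atlas;
* `second`  : the second difference of the holomorphic Euler characteristic;
* `bb_K`    : the index form of `K` is the intersection number `K²`;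
* `chi_eq`  : the constant of Riemann-Roch is `1 - h¹(O) + p_g`;
* `noeA_of` : `Surf.RRStmt → Lat.NoeAStmt`.
-/

set_option autoImplicit false
set_option linter.unusedSectionVars false

open Set Filter Module

namespace Crest.Agent.X262.Noe83

open Crest.Agent.R275 Crest.Agent.R275.Geo Crest.Agent.R275.Core144 Crest.Agent.R275.ChiM825
open Crest.Agent.R275.Q74 Crest.Agent.R275.MI683 Crest.Agent.R275.LnkP5476
open Crest.Agent.R273.FS_333
open Crest.Agent.X277 Crest.Agent.X277.Lef Crest.Agent.X277.AN.G1 Crest.Agent.X277.BD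
open Crest.Agent.X277.BD.Br Crest.Agent.X262.Surf

noncomputable section

section an

variable {M : Type} [TopologicalSpace M] [T2Space M] [CompactSpace M] {A : Atl 2 M}

/-- the holomorphic Euler characteristic -/
def ch (L : LB A) : ℤ := chiE (isLC L)

variable [Finite A.ι]

/-- the index form -/
def bb (P : Part A) (L K : LB A) : ℤ := bL P (geoI P (nabL_sq A)) (slb L) (slb K)

variable (P : Part A)

theorem euler (L : LB A) : chiL P (geoI P (nabL_sq A)) (slb L) = chiE (isLC L) :=
  EulC130.euler (gmodP_σ P (nabL_sq A)) (isCoh_geo P) P L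

theorem bb_eq (L K : LB A) : bb P L K = ch (L * K) - ch L - ch K + ch (1 : LB A) := by
  unfold bb bL ch
  rw [← slb_mul, ← slb_one, euler, euler, euler, euler]

theorem second (L K N : LB A) :
    ch (L * (K * N)) - ch (L * N) - ch (K * N) + ch N = bb P L K := by
  have h : bb P L (K * N) = bb P L K + bb P L N := bL_tmul_right (slb K) (slb N) (slb L)
  rw [bb_eq P L (K * N), bb_eq P L N] at h
  linarith

theorem ch_pow (O : LB A) (j : ℕ) :
    2 * ch (O ^ j) = 2 * ch (1 : LB A) + 2 * j * (ch O - ch (1 : LB A)) + j * (j - 1) * bb P O O := by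
  have key : ∀ j : ℕ, ch (O ^ (j + 1)) - ch (O ^ j) = ch O - ch (1 : LB A) + j * bb P O O := by
    intro j
    induction j with
    | zero => simp
    | succ j ih =>
      have h := second P O O (O ^ j)
      rw [← pow_succ', ← pow_succ'] at h
      push_cast
      linarith
  induction j with
  | zero => simp
  | succ j ih =>
    have h := key j
    push_cast
    linarith

/-- **Noether's formula**, analytic form -/
theorem noe_an {A : Atl 2 M} [Fintype A.ι] (P : Part A) (hA : GC293.GoodA A) :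
    12 * ch (1 : LB A) = bb P (KB A) (KB A) + Lat.nv A := by
  have h := NoeFin890.noether_geo' hA P P (fun m q w hd h0 hn => by
      obtain ⟨v, -, -, h3, h4⟩ :=
        NA4783.acyc (q := q) (m := m) (fun u => NoeAsm890.flat_prod u) w hd h0 hn
      exact ⟨v, h3, h4⟩) NA4sw686.rho_swap (euler P) (fun L => (serre_LB P L).2.2)
    fun L => (serre_LB P L).2.1
  rw [← slb_one, euler] at h
  exact h

end an

variable {F : Type} [Field F] [Algebra ℂ F] {P : PModel ℂ F} (b : B2 F) (X : AnP P 2)

theorem h0_zero : h0 (0 : BD ℂ F) = 1 := by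
  have h1 : (0 : BD ℂ F).Sec = Submodule.span ℂ {1} := by
    refine le_antisymm (fun x hx => ?_) ((Submodule.span_singleton_le_iff_mem _ _).2 fun V => ?_)
    · have h2 : IsIntegral (⊥ : Subalgebra ℂ F) x := Cns.isIntegral_of_val fun V hV =>
        RZ.le_one_iff.1 (hx ⟨V, Cns.KV.of_le hV⟩)
      obtain ⟨c, rfl⟩ := (IsAlgClosed.algebraMap_bijective_of_isIntegral (k := ℂ)
        (K := integralClosure ℂ F)).2 ⟨x, isIntegral_trans (R := ℂ) x h2⟩ |>.imp
          fun c hc => congrArg Subtype.val hc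
      exact Submodule.mem_span_singleton.2 ⟨c, (Algebra.algebraMap_eq_smul_one c).symm⟩
    · simp
  rw [h0, h1, finrank_span_singleton (one_ne_zero' F), Nat.cast_one]

/-- GAGA for the bundles `K ^ m ⊗ O(j)` -/
theorem h0_ko (m j : ℕ) : (finrank ℂ (HS (KB X.A ^ m * lb X.Pr ^ j) univ) : ℤ) =
    h0 (m • kP P b + j • oP P) := by
  have h := (AnP.secE (X.koF b m j)).finrank_eq
  rw [X.lbF_koF, X.Gam_koF, ← Sec_ky, zpow_natCast, natCast_zsmul] at h
  rw [h0, h]

theorem ch_large (m : ℕ) : ∀ᶠ j : ℕ in atTop,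
    ch (KB X.A ^ m * lb X.Pr ^ j) = h0 (m • kP P b + j • oP P) :=
  (chi_large X.PA (fsKah X.Pr) (fs_pos X.Pr) (KB X.A ^ m)).mono fun j hj =>
    hj.trans (h0_ko b X m j)

theorem ch_one : ch (1 : LB X.A) = 1 - (hq 1 (1 : LB X.A) : ℤ) + finrank ℂ (kP P b).Sec := by
  have h1 := h0_ko b X 0 0
  have h2 := h0_ko b X 1 0
  rw [pow_zero, pow_zero, mul_one, zero_smul, zero_smul, add_zero] at h1
  rw [pow_zero, pow_one, mul_one, zero_smul, one_smul, add_zero] at h2
  rw [ch, chiE_eq, (serre_LB X.PA 1).2.2, inv_one, mul_one, hq0_eq, hq0_eq, h1, h2, h0_zero, h0]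

variable [Algebra.EssFiniteType ℂ F]

theorem rr_ko (c : ℤ) (m j : ℕ) : rr P b c (m • kP P b + j • oP P) =
    2 * c + m * (m - 1) * bnum [kP P b, kP P b] + (2 * m - 1) * j * bnum [kP P b, oP P] +
      j ^ 2 * bnum [oP P, oP P] := by
  simp only [rr, bnum_add, bnum_nsmul, bnum_sub2, bnum_add2, bnum_nsmul2,
    bnum_swap (oP P) (kP P b)]
  ring

variable {b} {c : ℤ} (hc : Chi P b c)

include hc

theorem ch_rr (m : ℕ) : ∀ᶠ j : ℕ in atTop, 2 * ch (KB X.A ^ m * lb X.Pr ^ j) =
    2 * c + m * (m - 1) * bnum [kP P b, kP P b] + (2 * m - 1) * j * bnum [kP P b, oP P] +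
      j ^ 2 * bnum [oP P, oP P] := by
  filter_upwards [ch_large b X m, hc _ (nsmul_mem (kP_mem b) m)] with j h1 h2
  rw [h1, h2, rr_ko]

/-- the index form of the canonical bundle -/
theorem bb_K : bb X.PA (KB X.A) (KB X.A) = bnum [kP P b, kP P b] := by
  obtain ⟨j, h0, h1, h2⟩ := ((ch_rr X hc 0).and ((ch_rr X hc 1).and (ch_rr X hc 2))).exists
  have h := second X.PA (KB X.A) (KB X.A) (lb X.Pr ^ j)
  rw [pow_zero, one_mul] at h0
  rw [pow_one] at h1
  rw [pow_two, mul_assoc] at h2
  push_cast at h0 h1 h2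
  linarith

/-- the constant of Riemann-Roch -/
theorem chi_eq : c = 1 - (hq 1 (1 : LB X.A) : ℤ) + finrank ℂ (kP P b).Sec := by
  obtain ⟨j, hj⟩ := eventually_atTop.1 (ch_rr X hc 0)
  have h : ∀ i : ℕ, 2 * ch (1 : LB X.A) + 2 * (j + i) * (ch (lb X.Pr) - ch (1 : LB X.A)) +
      (j + i) * (j + i - 1) * bb X.PA (lb X.Pr) (lb X.Pr) =
      2 * c - (j + i) * bnum [kP P b, oP P] + (j + i) ^ 2 * bnum [oP P, oP P] := by
    intro i
    have h1 := hj (j + i) (Nat.le_add_right _ _)
    rw [pow_zero, one_mul, ch_pow X.PA] at h1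
    push_cast at h1
    linarith
  have h0 := h 0
  have h1 := h 1
  have h2 := h 2
  push_cast at h0 h1 h2
  have e2 : bb X.PA (lb X.Pr) (lb X.Pr) = bnum [oP P, oP P] := by linarith
  rw [e2] at h0 h1
  have e1 : 2 * (ch (lb X.Pr) - ch (1 : LB X.A)) = bnum [oP P, oP P] - bnum [kP P b, oP P] := by
    linarith
  rw [← ch_one b X]
  have e0 : 2 * (j : ℤ) * (ch (lb X.Pr) - ch (1 : LB X.A)) =
      j * (bnum [oP P, oP P] - bnum [kP P b, oP P]) := by
    rw [← e1]
    ring
  linarith

omit hc in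
/-- **Noether's formula** -/
theorem noeA_of (hR : RRStmt) : Lat.NoeAStmt := by
  intro F _ _ _ P b X _
  obtain ⟨c, hc⟩ := hR F P b
  rw [← ch_one b X, ← bb_K X hc]
  exact noe_an X.PA X.good

end

end Crest.Agent.X262.Noe83
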